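import Vale.Agent.P365.T2.H24.K4
import Vale.Agent.P365.T2.OneWire905
import Vale.Agent.P365.V4.B701.Weg

/-!
# P365-T2, the energy of the static rows (`BadE` of 905 for `Z` = static sites), over `StW`

`Z l` = sites with `e_x ≤ c u_x` (`c = 2`: the moving part is at most the static part).
`Av ∑_{x ∈ Z} e_x ∑_k M_x(F_k) ≤ c Av ∑_x u_x ∑_k M_x(F_k)`, which is at most
`c 2 L exp (-S) N²` (family Lipschitz for `dsq`) and at most `c R exp (-S/η) N²` (bounded kernel).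
-/

set_option linter.all false

namespace P365T2.H798

open P365L P365O P365T1 P365L.TL P365T2.H213 P365T2.H24 P365T2.H905 Matrix Complex MeasureTheory
open Vale.Agent.P365.J376
open scoped ComplexConjugate ENNReal

/-! ### pathwise: 905's `BadE` on a Green function -/

section path

variable {ι κ : Type*} [Fintype ι] [DecidableEq ι] [Fintype κ] {A : Matrix ι ι ℝ} {W : ι → ℂ}
  (hA : A.IsSymm) (hW : ∀ x, (W x).im < 0) (F : κ → ι → ℝ) (om : ι → ℝ) (h0 : ∀ x, 0 ≤ om x)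
  (h1 : ∀ x, om x ≤ 1)

/-- `π_z V_z = e_z ∑_k M_z(F_k)` -/
theorem datOf_pw_V (z : ι) :
    (datOf A W hA hW F om h0 h1).pw z * (datOf A W hA hW F om h0 h1).V z =
      (-(W z).im) * ∑ k, Mf A W (F k) z := by
  have hm := (mm_pos hA hW z).ne'
  have e1 : (datOf A W hA hW F om h0 h1).V z =
      (∑ x, (-(W x).im) * KK A W z x * ∑ k, (F k z - F k x) ^ 2) / mm A W z := by
    unfold Dat.V Dat.P Dat.d2
    rw [Finset.sum_div]
    refine Finset.sum_congr rfl fun x _ => ?_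
    simp only [datOf]
    ring
  have e2 : ∑ k, Mf A W (F k) z =
      ∑ x, (-(W x).im) * KK A W z x * ∑ k, (F k z - F k x) ^ 2 := by
    unfold Mf
    rw [Finset.sum_comm]
    refine Finset.sum_congr rfl fun x _ => ?_
    rw [Finset.mul_sum]
    exact Finset.sum_congr rfl fun k _ => by ring
  rw [datOf_pw, e1, e2]
  field_simp

/-- **`BadE` on a Green function** -/
theorem datOf_BadE (Z : Finset ι) :
    Ker.BadE (datOf A W hA hW F om h0 h1) Z = ∑ z ∈ Z, (-(W z).im) * ∑ k, Mf A W (F k) z := by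
  unfold Ker.BadE
  exact Finset.sum_congr rfl fun z _ => datOf_pw_V hA hW F om h0 h1 z

end path

/-! ### averages over a stage -/

variable {N : ℕ} [NeZero N] {W : StW N} {lam E C1 η : ℝ}

/-- energy of the rows in a label dependent set -/
noncomputable def BadA {κ : Type} [Fintype κ] (W : StW N) (E : ℝ) (F : κ → Tor N → ℝ)
    (Z : (Tor N → W.Λ) → Finset (Tor N)) (τ : ℝ) : ℝ :=
  W.Av E τ fun l V => ∑ x ∈ Z l, (-(V x).im) * ∑ k, Mf (AT N) V (F k) x

/-- the static sites at time `τ` -/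
noncomputable def Zst (W : StW N) (τ : ℝ) (l : Tor N → W.Λ) : Finset (Tor N) :=
  open Classical in Finset.univ.filter fun x => Real.exp (-τ) * W.w l x < W.u l x

theorem mem_Zst {τ : ℝ} {l : Tor N → W.Λ} {x : Tor N} :
    x ∈ Zst W τ l ↔ Real.exp (-τ) * W.w l x < W.u l x := by
  classical
  unfold Zst
  rw [Finset.mem_filter]
  exact ⟨fun h => h.2, fun h => ⟨Finset.mem_univ _, h⟩⟩

theorem eT_le_of_mem {τ : ℝ} {l : Tor N → W.Λ} {x : Tor N} (hx : x ∈ Zst W τ l) :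
    eT W.u W.w τ l x ≤ 2 * W.u l x := by
  have h := mem_Zst.1 hx
  unfold eT
  linarith

theorem eT_le_of_notMem {τ : ℝ} {l : Tor N → W.Λ} {x : Tor N} (hx : x ∉ Zst W τ l) :
    eT W.u W.w τ l x ≤ 2 * (Real.exp (-τ) * W.w l x) := by
  have h := mt mem_Zst.2 hx
  unfold eT
  push Not at h
  linarith

section avg

variable {κ : Type} [Fintype κ] {F : κ → Tor N → ℝ}

/-- `BadA` is the content of the absorption restricted to `Z` -/
theorem BadA_eq (h : W.Ok lam E C1 η) (τ : ℝ) (Z : (Tor N → W.Λ) → Finset (Tor N)) :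
    BadA W E F Z τ = P365V4.B701.ShareG (AT N) W.p W.ν E F (eT W.u W.w τ)
      (fun l x => open Classical in if x ∈ Z l then eT W.u W.w τ l x else 0) := by
  classical
  unfold BadA StW.Av P365V4.B701.ShareG AvG Ex
  refine Finset.sum_congr rfl fun l _ => ?_
  congr 1
  refine integral_congr_ae (Filter.Eventually.of_forall fun v => ?_)
  simp only
  rw [← Finset.sum_filter_add_sum_filter_not Finset.univ (fun x => x ∈ Z l)]
  have e1 : ∑ x ∈ Finset.univ.filter (fun x => x ∉ Z l),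
      (if x ∈ Z l then eT W.u W.w τ l x else 0) *
        ∑ k, Mf (AT N) (WV E (eT W.u W.w τ l) v) (F k) x = 0 := by
    refine Finset.sum_eq_zero fun x hx => ?_
    rw [if_neg (Finset.mem_filter.1 hx).2, zero_mul]
  rw [e1, add_zero, Finset.filter_mem_eq_inter, Finset.univ_inter]
  refine Finset.sum_congr rfl fun x hx => ?_
  rw [if_pos hx, P365T1.WV_im, neg_neg]

theorem BadA_nonneg (h : W.Ok lam E C1 η) (τ : ℝ) (Z : (Tor N → W.Λ) → Finset (Tor N)) :
    0 ≤ BadA W E F Z τ := by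
  haveI := h.prob
  unfold BadA StW.Av AvG
  refine Finset.sum_nonneg fun l _ => mul_nonneg (Finset.prod_nonneg fun x _ => h.p_nonneg _) ?_
  refine Ex_nonneg _ _ _ fun v => Finset.sum_nonneg fun x _ => ?_
  have hneg : ∀ y, (WV E (eT W.u W.w τ l) v y).im < 0 := WV_neg (eT_pos h τ l) v
  exact mul_nonneg (by linarith [hneg x]) (Finset.sum_nonneg fun k _ => Mf_nonneg hneg _ _)

/-- comparison with the static content -/
theorem BadA_le_ShS (h : W.Ok lam E C1 η) {τ c : ℝ} (hc : 0 ≤ c)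
    {Z : (Tor N → W.Λ) → Finset (Tor N)}
    (hZ : ∀ l, ∀ x ∈ Z l, eT W.u W.w τ l x ≤ c * W.u l x) :
    BadA W E F Z τ ≤ c * ShS W E F τ := by
  classical
  haveI := h.prob
  rw [BadA_eq h]
  have h1 : ShS W E F τ = P365V4.B701.ShareG (AT N) W.p W.ν E F (eT W.u W.w τ) W.u := rfl
  rw [h1, ← P365V4.B701.ShareG_smul]
  refine P365V4.B701.ShareG_mono (AT_symm N) h.p_nonneg (eT_pos h τ) fun l x => ?_
  by_cases hx : x ∈ Z l
  · rw [if_pos hx]
    exact hZ l x hx
  · rw [if_neg hx]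
    exact mul_nonneg hc (u_nonneg h l x)

/-- **static rows**, Lipschitz family -/
theorem BadA_small (h : W.Ok lam E C1 η) (hη : 0 < η) (hη1 : C1 + 2 ≤ 1 / η) (hS : 0 ≤ W.S)
    {τ : ℝ} (hτ : τ ∈ Set.Icc 0 W.S) {L : ℝ} (hL : 0 < L)
    (hF : ∀ x y, ∑ k, (F k y - F k x) ^ 2 ≤ L * dsq x y) {c : ℝ} (hc : 0 ≤ c)
    {Z : (Tor N → W.Λ) → Finset (Tor N)}
    (hZ : ∀ l, ∀ x ∈ Z l, eT W.u W.w τ l x ≤ c * W.u l x) :
    BadA W E F Z τ ≤ c * (2 * L * Real.exp (-W.S)) * (N : ℝ) ^ 2 := by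
  refine (BadA_le_ShS h hc hZ).trans ?_
  rw [mul_assoc]
  exact mul_le_mul_of_nonneg_left (shS_small h hη hη1 hS hτ hL hF) hc

/-- **static rows**, Lipschitz family, `Z = Zst` -/
theorem BadA_Zst (h : W.Ok lam E C1 η) (hη : 0 < η) (hη1 : C1 + 2 ≤ 1 / η) (hS : 0 ≤ W.S)
    {τ : ℝ} (hτ : τ ∈ Set.Icc 0 W.S) {L : ℝ} (hL : 0 < L)
    (hF : ∀ x y, ∑ k, (F k y - F k x) ^ 2 ≤ L * dsq x y) :
    BadA W E F (Zst W τ) τ ≤ 4 * L * Real.exp (-W.S) * (N : ℝ) ^ 2 := by
  refine (BadA_small h hη hη1 hS hτ hL hF (c := 2) (by norm_num)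
    fun l x hx => eT_le_of_mem hx).trans (le_of_eq ?_)
  ring

/-- static content, bounded kernel -/
theorem ShS_bdd (h : W.Ok lam E C1 η) {τ : ℝ} (hτ : τ ∈ Set.Icc 0 W.S) {R : ℝ} (hR0 : 0 ≤ R)
    (hR : ∀ x y, ∑ k, (F k x - F k y) ^ 2 ≤ R) :
    ShS W E F τ ≤ R * Real.exp (-(W.S / η)) * (N : ℝ) ^ 2 := by
  haveI := h.prob
  have hsh := h.share τ hτ
  have h1 : ShS W E F τ ≤ R * W.EM E W.u τ := by
    unfold ShS StW.EM StW.Av AvG Ex
    rw [Finset.mul_sum]
    refine Finset.sum_le_sum fun l _ => ?_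
    rw [← mul_assoc, mul_comm R (∏ x, W.p (l x)), mul_assoc]
    refine mul_le_mul_of_nonneg_left ?_ (Finset.prod_nonneg fun x _ => h.p_nonneg _)
    rw [← integral_const_mul]
    have hneg : ∀ v y, (WV E (eT W.u W.w τ l) v y).im < 0 := fun v => WV_neg (eT_pos h τ l) v
    refine integral_mono (P365V4.B701.integrable_sum_Mf (AT_symm N) _ E (eT_pos h τ l) _) ?_
      fun v => ?_
    · refine Integrable.const_mul (integrable_finset_sum _ fun x _ => Integrable.const_mul ?_ _) _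
      exact P365T2.H24.integrable_mm (AT_symm N) _ E (eT_pos h τ l) x
    · simp only
      rw [Finset.mul_sum]
      refine Finset.sum_le_sum fun x _ => ?_
      have h2 := P365V4.B701.sum_Mf_le_mm (AT_symm N) (hneg v) hR x
      calc W.u l x * ∑ k, Mf (AT N) (WV E (eT W.u W.w τ l) v) (F k) x
          ≤ W.u l x * (R * mm (AT N) (WV E (eT W.u W.w τ l) v) x) :=
            mul_le_mul_of_nonneg_left h2 (u_nonneg h l x)
        _ = _ := by ring
  calc ShS W E F τ ≤ R * W.EM E W.u τ := h1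
    _ ≤ R * (Real.exp (-(W.S / η)) * (N : ℝ) ^ 2) := mul_le_mul_of_nonneg_left hsh hR0
    _ = _ := by ring

/-- **static rows**, bounded kernel -/
theorem BadA_Zst_bdd (h : W.Ok lam E C1 η) {τ : ℝ} (hτ : τ ∈ Set.Icc 0 W.S) {R : ℝ}
    (hR0 : 0 ≤ R) (hR : ∀ x y, ∑ k, (F k x - F k y) ^ 2 ≤ R) :
    BadA W E F (Zst W τ) τ ≤ 2 * R * Real.exp (-(W.S / η)) * (N : ℝ) ^ 2 := by
  refine (BadA_le_ShS h (c := 2) (by norm_num) fun l x hx => eT_le_of_mem hx).trans ?_
  have := mul_le_mul_of_nonneg_left (ShS_bdd h hτ hR0 hR) (by norm_num : (0 : ℝ) ≤ 2)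
  refine this.trans (le_of_eq ?_)
  ring

end avg

end P365T2.H798
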