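import Vale.Agent.P365.T2.H259.BadAv
import Vale.Agent.P365.T2.H798.BadZ
import Vale.Agent.P365.H219.LFlow

/-!
# P365-T2, the energy of the bad rows over `StW` (259's `ZB`)

`Av BadF ≤ (static share) + CBE * (off-resonant energy)`, both tiny in a good stage:
every Lipschitz family, every time of the stage.
-/

set_option linter.all false

namespace P365T2.H798

open P365L P365O P365T1 P365L.TL P365T2.H213 P365T2.H24 P365T2.H259 P365T2.H862 P365T2.H179
open Matrix Complex MeasureTheory Set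
open Vale.Agent.P365.J376 P365T2.SeqG P365T2.ConcG P365V4.Free P365T1.Conc
open scoped ComplexConjugate ENNReal

/-- lower constant of 862's edge law for the moving sites -/
noncomputable def aS (lam : ℝ) : ℝ :=
  (2 * (lam - lam * tau0 / 2))⁻¹ * (15 / (128 * lam ^ 3))

/-- upper constant of 862's edge law for the moving sites -/
noncomputable def bS (lam : ℝ) : ℝ :=
  (2 * (lam - lam * tau0 / 2))⁻¹ * (15 / (4 * (lam * tau0 / 2) ^ 3))

theorem edgeLaw_S {lam : ℝ} (hlam : 0 < lam) :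
    EdgeLaw lam (aS lam) (bS lam) (nuS lam (lam * tau0 / 2)) := by
  refine edgeLaw_nuS (l0_pos hlam) ?_
  have h0 := tau0_le
  nlinarith

theorem CBE_nonneg {lam : ℝ} (hlam : 0 < lam) (E : ℝ) : 0 ≤ CBE lam (bS lam) E := by
  have h1 := edgeLaw_S hlam
  have := h1.b_pos
  unfold CBE CB
  positivity

variable {N : ℕ} [NeZero N] {W : StW N} {lam E C1 η : ℝ}

/-- the moving sites carry an edge law -/
theorem edge_mov (h : W.Ok lam E C1 η) (hlam : 0 < lam) (l : Tor N → W.Λ) (x : Tor N)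
    (hx : W.w l x ≠ 0) : EdgeLaw lam (aS lam) (bS lam) (W.ν (l x)) := by
  rw [h.mov l x hx]
  exact edgeLaw_S hlam

theorem wT_eq_zero {τ : ℝ} {l : Tor N → W.Λ} {x : Tor N} : wT W.w τ l x = 0 ↔ W.w l x = 0 := by
  unfold wT
  rw [mul_eq_zero]
  exact ⟨fun h => h.resolve_left (Real.exp_pos _).ne', Or.inr⟩

/-- the bad set does not depend on the scaling of the moving weight -/
theorem ZB_wT (A : Matrix (Tor N) (Tor N) ℝ) (τ : ℝ) (l : Tor N → W.Λ) (V : Tor N → ℂ) :
    ZB lam A E (wT W.w τ l) V = ZB lam A E (W.w l) V := by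
  ext x
  rw [mem_ZB, mem_ZB, wT_eq_zero]

section avg

variable {κ : Type} [Fintype κ] {F : κ → Tor N → ℝ}

/-- **energy of the bad rows** -/
theorem avBadF_le (h : W.Ok lam E C1 η) (hlam : 0 < lam) (τ : ℝ) :
    W.Av E τ (fun l V => BadF lam (AT N) E F (W.w l) V) ≤
      ShS W E F τ + CBE lam (bS lam) E * W.Yg E F τ := by
  haveI := h.prob
  have h1 := AvG_BadF_le (A := AT N) (p := W.p) (ν := W.ν) (E := E) (lam := lam) (F := F)
    (AT_symm N) h.p_nonneg (u := W.u) (w := wT W.w τ)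
    (fun l x => by
      have := P365H219.stw_e_pos h τ l x
      unfold eT at this
      unfold wT
      exact this)
    (P365H219.stw_u_nonneg h) (P365H219.stw_w_nonneg h τ)
    (fun l x hx => edge_mov h hlam l x fun h0 => hx (wT_eq_zero.2 h0))
  have h2 : (fun l V => BadF lam (AT N) E F (W.w l) V) =
      fun l V => BadF lam (AT N) E F (wT W.w τ l) V := by
    funext l V
    unfold BadF
    rw [ZB_wT]
  rw [h2]
  exact h1

theorem avBadF_nonneg (h : W.Ok lam E C1 η) (τ : ℝ) :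
    0 ≤ W.Av E τ (fun l V => BadF lam (AT N) E F (W.w l) V) := by
  haveI := h.prob
  unfold StW.Av AvG
  refine Finset.sum_nonneg fun l _ => mul_nonneg (Finset.prod_nonneg fun x _ => h.p_nonneg _) ?_
  exact Ex_nonneg _ _ _ fun v => BadF_nonneg (WV_neg (P365T2.H24.eT_pos h τ l) v)

/-- a Lipschitz family for the distance is Lipschitz for `dsq` -/
theorem dsq_of_vecLip {Λf : ℝ} (hF : VecLip F Λf) (x y : Tor N) :
    ∑ k, (F k y - F k x) ^ 2 ≤ 5 / 2 * Λf ^ 2 * dsq x y := by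
  have h1 : ∑ k, (F k y - F k x) ^ 2 = ∑ k, (F k x - F k y) ^ 2 :=
    Finset.sum_congr rfl fun k _ => by ring
  rw [h1]
  refine (hF x y).trans ?_
  have h2 := dsq_ge x y
  have h3 : (nrm (x - y) : ℝ) ^ 2 ≤ 5 / 2 * dsq x y := by
    have hpi : Real.pi ^ 2 ≤ 10 := by
      have := Real.pi_lt_d2
      have := Real.pi_pos
      nlinarith
    have h4 : 2 / 5 * (nrm (x - y) : ℝ) ^ 2 ≤ 4 / Real.pi ^ 2 * (nrm (x - y) : ℝ) ^ 2 := by
      refine mul_le_mul_of_nonneg_right ?_ (sq_nonneg _)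
      rw [div_le_div_iff₀ (by norm_num) (by positivity)]
      linarith
    linarith
  calc Λf ^ 2 * (nrm (x - y) : ℝ) ^ 2 ≤ Λf ^ 2 * (5 / 2 * dsq x y) :=
        mul_le_mul_of_nonneg_left h3 (sq_nonneg _)
    _ = _ := by ring

/-- **the energy of the bad rows is tiny**, every Lipschitz family, every time of the stage -/
theorem badF_small (h : W.Ok lam E C1 η) (hlam : 0 < lam) (hη : 0 < η) (hη0 : η ≤ 1)
    (hη1 : C1 + 2 ≤ 1 / η) {τ : ℝ} (hτ : τ ∈ Set.Icc 0 W.S) {Λf : ℝ} (hΛ : 0 < Λf)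
    (hF : VecLip F Λf) :
    W.Av E τ (fun l V => BadF lam (AT N) E F (W.w l) V) ≤
      (5 * Λf ^ 2 * Real.exp (-W.S) +
        CBE lam (bS lam) E * ((C1 + 1) * Λf ^ 2 * η / W.S ^ 8)) * (N : ℝ) ^ 2 := by
  have hS : 0 ≤ W.S := zero_le_one.trans (P365H219.stw_S_ge_one h hη hη0)
  have h1 := shS_small h hη hη1 hS hτ (F := F) (L := 5 / 2 * Λf ^ 2) (by positivity)
    (dsq_of_vecLip hF)
  have h2 := mul_le_mul_of_nonneg_left (P365H219.Yg_le h hη hη0 hτ hΛ.le hF)
    (CBE_nonneg hlam E)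
  refine (avBadF_le h hlam τ).trans ((add_le_add h1 h2).trans (le_of_eq ?_))
  ring

/-- `exp (-S) ≤ 40320 * η / S ^ 8 * ... `: everything is at most `C η / S ^ 7` -/
theorem exp_neg_le {S : ℝ} (hS : 0 < S) : Real.exp (-S) ≤ 362880 / S ^ 9 := by
  have h1 : S ^ 9 / 362880 ≤ Real.exp S := by
    have := Real.pow_div_factorial_le_exp S hS.le 9
    have h9 : ((Nat.factorial 9 : ℕ) : ℝ) = 362880 := by norm_num [Nat.factorial]
    rwa [h9] at this
  rw [Real.exp_neg, ← one_div, div_le_div_iff₀ (Real.exp_pos _) (by positivity)]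
  have h2 : 0 < S ^ 9 := by positivity
  linarith [(div_le_iff₀ (by norm_num : (0 : ℝ) < 362880)).1 h1]

/-- constant of the final form -/
noncomputable def KBad (lam E C1 : ℝ) : ℝ := 5 * 362880 + CBE lam (bS lam) E * (C1 + 1)

theorem KBad_pos {lam : ℝ} (hlam : 0 < lam) (E : ℝ) {C1 : ℝ} (hC1 : 0 ≤ C1) :
    0 < KBad lam E C1 := by
  have := CBE_nonneg hlam E
  unfold KBad
  positivity

/-- **final form**: at most `KBad Λf² η / S ^ 8` per site -/
theorem badF_small' (h : W.Ok lam E C1 η) (hlam : 0 < lam) (hη : 0 < η) (hη0 : η ≤ 1)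
    (hη1 : C1 + 2 ≤ 1 / η) {τ : ℝ} (hτ : τ ∈ Set.Icc 0 W.S) {Λf : ℝ} (hΛ : 0 < Λf)
    (hF : VecLip F Λf) :
    W.Av E τ (fun l V => BadF lam (AT N) E F (W.w l) V) ≤
      KBad lam E C1 * Λf ^ 2 * (η / W.S ^ 8) * (N : ℝ) ^ 2 := by
  have hS1 := P365H219.stw_S_ge_one h hη hη0
  have hS : 0 < W.S := zero_lt_one.trans_le hS1
  have h1 : Real.exp (-W.S) ≤ 362880 * (η / W.S ^ 8) := by
    refine (exp_neg_le hS).trans ?_
    have h2 : 1 / W.S ≤ η := by
      rw [div_le_iff₀ hS]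
      have := (div_le_iff₀ hη).1 h.S_ge
      linarith
    calc 362880 / W.S ^ 9 = 362880 * (1 / W.S / W.S ^ 8) := by
          field_simp
      _ ≤ _ := by gcongr
  refine (badF_small h hlam hη hη0 hη1 hτ hΛ hF).trans ?_
  refine mul_le_mul_of_nonneg_right ?_ (sq_nonneg _)
  have h3 : 5 * Λf ^ 2 * Real.exp (-W.S) ≤ 5 * Λf ^ 2 * (362880 * (η / W.S ^ 8)) :=
    mul_le_mul_of_nonneg_left h1 (by positivity)
  refine (add_le_add h3 le_rfl).trans (le_of_eq ?_)
  unfold KBad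
  ring

end avg

end P365T2.H798
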