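import Vale.Agent.P365.T2.H536.Start2
import Vale.Agent.P365.T2.H984.L0b
import Vale.Agent.P365.V4.CT77

/-!
# P365-T2, START2 at any level

Labels independent with `1 - p good ≤ 1/8192`, absorption `≥ ε` at the good sites
(`0 < ε ≤ 1`), any positive number elsewhere, any symmetric matrix dominated by the adjacency of
the torus.  Second moment of the energy of a block: `≤ cL ε * (K² |Bl|)²`, `cL ε = C ε⁻¹²`.
-/

set_option linter.all false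

namespace P365T2.H798

open Finset MeasureTheory P365T1 P365L P365O P365L.TL Vale.Agent.P365.J376 Matrix Complex
open P365V4.Start77 P365T2.H536 P365T2.H984

variable {N : ℕ} [NeZero N]

/-- the majorant of one column, rate `μ` -/
noncomputable def FBL (N : ℕ) [NeZero N] (μ : ℝ) (b : Tor N) (S : Finset (Tor N)) : ℝ :=
  4 * ∑ a, (nrm (a - b) : ℝ) ^ 2 * Real.exp (-2 * μ * dg (nbT N) S b a)

theorem FBL_nonneg (μ : ℝ) (b : Tor N) (S : Finset (Tor N)) : 0 ≤ FBL N μ b S :=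
  mul_nonneg (by norm_num)
    (Finset.sum_nonneg fun a _ => mul_nonneg (sq_nonneg _) (Real.exp_pos _).le)

theorem pow12_exp_le {μ : ℝ} (hμ : 0 < μ) (hμ1 : μ ≤ 1 / 2) (n : ℕ) :
    (1 + (n : ℝ)) ^ 12 * Real.exp (-(2 * μ * n / 3)) ≤ 2 * 10 ^ 11 / μ ^ 12 := by
  obtain ⟨x, hx⟩ : ∃ x : ℝ, x = 2 * μ * (1 + n) / 3 := ⟨_, rfl⟩
  have hx0 : 0 ≤ x := by rw [hx]; positivity
  have h1 := Real.pow_div_factorial_le_exp x hx0 12
  have h2 : Real.exp x = Real.exp (2 * μ / 3) * Real.exp (2 * μ * n / 3) := by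
    rw [← Real.exp_add, hx]
    congr 1
    ring
  have h3 : Real.exp (2 * μ / 3) ≤ 2 := by
    have h4 : Real.exp (2 * μ / 3) ≤ Real.exp (1 / 2) := Real.exp_le_exp.2 (by linarith)
    exact h4.trans exp_half_le
  have h5 : x ^ 12 / (Nat.factorial 12 : ℝ) ≤ 2 * Real.exp (2 * μ * n / 3) := by
    refine h1.trans ?_
    rw [h2]
    exact mul_le_mul_of_nonneg_right h3 (Real.exp_pos _).le
  have h6 : x ^ 12 = (2 / 3 : ℝ) ^ 12 * (μ ^ 12 * (1 + (n : ℝ)) ^ 12) := by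
    rw [hx]
    ring
  have h7 : (Nat.factorial 12 : ℝ) = 479001600 := by norm_num [Nat.factorial]
  rw [h6, h7, div_le_iff₀ (by norm_num)] at h5
  have h8 : Real.exp (2 * μ * n / 3) * Real.exp (-(2 * μ * n / 3)) = 1 := by
    rw [← Real.exp_add, add_neg_cancel, Real.exp_zero]
  have h9 : 0 < Real.exp (-(2 * μ * n / 3)) := Real.exp_pos _
  have h10 : μ ^ 12 * (1 + (n : ℝ)) ^ 12 ≤ 2 * 10 ^ 11 * Real.exp (2 * μ * n / 3) := by
    have h11 : (0 : ℝ) < Real.exp (2 * μ * n / 3) := Real.exp_pos _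
    have h12 : (2 / 3 : ℝ) ^ 12 * (μ ^ 12 * (1 + (n : ℝ)) ^ 12) ≤
        (2 / 3 : ℝ) ^ 12 * (2 * 10 ^ 11 * Real.exp (2 * μ * n / 3)) := by
      refine h5.trans ?_
      norm_num
      nlinarith
    exact le_of_mul_le_mul_left h12 (by positivity)
  rw [le_div_iff₀ (by positivity)]
  calc (1 + (n : ℝ)) ^ 12 * Real.exp (-(2 * μ * n / 3)) * μ ^ 12
      = μ ^ 12 * (1 + (n : ℝ)) ^ 12 * Real.exp (-(2 * μ * n / 3)) := by ring
    _ ≤ 2 * 10 ^ 11 * Real.exp (2 * μ * n / 3) * Real.exp (-(2 * μ * n / 3)) :=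
        mul_le_mul_of_nonneg_right h10 h9.le
    _ = 2 * 10 ^ 11 := by rw [mul_assoc, h8, mul_one]

theorem sum_pow8_le {μ : ℝ} (hμ : 0 < μ) (hμ1 : μ ≤ 1 / 2) (b : Tor N) :
    ∑ a, (1 + (nrm (a - b) : ℝ)) ^ 8 * Real.exp (-(2 * μ * (nrm (a - b) : ℝ) / 3)) ≤
      32 * 10 ^ 11 / μ ^ 12 := by
  have h1 : ∀ a : Tor N, (1 + (nrm (a - b) : ℝ)) ^ 8 *
      Real.exp (-(2 * μ * (nrm (a - b) : ℝ) / 3)) ≤
      cw (a - b) * (2 * 10 ^ 11 / μ ^ 12) := by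
    intro a
    have hc := cw_pos (a - b)
    have h2 := inv_cw_le (a - b)
    have h3 : 1 ≤ cw (a - b) * (1 + (nrm (a - b) : ℝ)) ^ 4 := by
      rw [div_le_iff₀ hc] at h2
      linarith
    have h4 : 0 ≤ (1 + (nrm (a - b) : ℝ)) ^ 8 *
        Real.exp (-(2 * μ * (nrm (a - b) : ℝ) / 3)) := by positivity
    calc (1 + (nrm (a - b) : ℝ)) ^ 8 * Real.exp (-(2 * μ * (nrm (a - b) : ℝ) / 3))
        ≤ ((1 + (nrm (a - b) : ℝ)) ^ 8 * Real.exp (-(2 * μ * (nrm (a - b) : ℝ) / 3))) *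
          (cw (a - b) * (1 + (nrm (a - b) : ℝ)) ^ 4) := le_mul_of_one_le_right h4 h3
      _ = cw (a - b) * ((1 + (nrm (a - b) : ℝ)) ^ 12 *
          Real.exp (-(2 * μ * (nrm (a - b) : ℝ) / 3))) := by ring
      _ ≤ _ := mul_le_mul_of_nonneg_left (pow12_exp_le hμ hμ1 _) hc.le
  refine (Finset.sum_le_sum fun a _ => h1 a).trans ?_
  rw [← Finset.sum_mul]
  have h5 := sum_cw_sub b
  have h6 : 0 ≤ 2 * 10 ^ 11 / μ ^ 12 := by positivity
  calc (∑ a : Tor N, cw (a - b)) * (2 * 10 ^ 11 / μ ^ 12) ≤ 16 * (2 * 10 ^ 11 / μ ^ 12) :=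
        mul_le_mul_of_nonneg_right h5 h6
    _ = _ := by ring

/-- **square of the majorant**, pathwise -/
theorem FBL_sq_le {μ : ℝ} (hμ : 0 < μ) (hμ1 : μ ≤ 1 / 2) (b : Tor N) (S : Finset (Tor N)) :
    FBL N μ b S ^ 2 ≤ 10 ^ 15 / μ ^ 12 * ZB S b := by
  have hZ := ZB_nonneg S b
  unfold FBL
  have h1 := sum_pow_le b (fun a => (nrm (a - b) : ℝ) ^ 2 *
    Real.exp (-2 * μ * dg (nbT N) S b a)) (fun a => by positivity) 1
  have h2 : ∀ a : Tor N, ((nrm (a - b) : ℝ) ^ 2 * Real.exp (-2 * μ * dg (nbT N) S b a)) ^ (1 + 1) *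
      (1 + (nrm (a - b) : ℝ)) ^ (4 * 1) ≤
      ((1 + (nrm (a - b) : ℝ)) ^ 8 * Real.exp (-(2 * μ * (nrm (a - b) : ℝ) / 3))) * ZB S b := by
    intro a
    have h3 := exp_dg_le (μ := 2 * μ) (by linarith) (by linarith) S b a
    have h4 : Real.exp (-2 * μ * dg (nbT N) S b a) ^ 2 =
        Real.exp (-2 * (2 * μ) * dg (nbT N) S b a) := by
      rw [← Real.exp_nat_mul]
      congr 1
      push_cast
      ring
    have h5 : (nrm (a - b) : ℝ) ^ 4 ≤ (1 + (nrm (a - b) : ℝ)) ^ 4 :=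
      pow_le_pow_left₀ (Nat.cast_nonneg _) (by linarith) _
    calc ((nrm (a - b) : ℝ) ^ 2 * Real.exp (-2 * μ * dg (nbT N) S b a)) ^ (1 + 1) *
        (1 + (nrm (a - b) : ℝ)) ^ (4 * 1)
        = (nrm (a - b) : ℝ) ^ 4 * (1 + (nrm (a - b) : ℝ)) ^ 4 *
          Real.exp (-2 * μ * dg (nbT N) S b a) ^ 2 := by ring
      _ ≤ (1 + (nrm (a - b) : ℝ)) ^ 4 * (1 + (nrm (a - b) : ℝ)) ^ 4 *
          (Real.exp (-(2 * μ * (nrm (a - b) : ℝ) / 3)) * ZB S b) := by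
          rw [h4]
          refine mul_le_mul (mul_le_mul_of_nonneg_right h5 (by positivity)) h3
            (Real.exp_pos _).le (by positivity)
      _ = _ := by ring
  have h6 : ∑ a, ((nrm (a - b) : ℝ) ^ 2 * Real.exp (-2 * μ * dg (nbT N) S b a)) ^ (1 + 1) *
      (1 + (nrm (a - b) : ℝ)) ^ (4 * 1) ≤ 32 * 10 ^ 11 / μ ^ 12 * ZB S b := by
    refine (Finset.sum_le_sum fun a _ => h2 a).trans ?_
    rw [← Finset.sum_mul]
    exact mul_le_mul_of_nonneg_right (sum_pow8_le hμ hμ1 b) hZ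
  have h7 : (∑ a, (nrm (a - b) : ℝ) ^ 2 * Real.exp (-2 * μ * dg (nbT N) S b a)) ^ 2 ≤
      16 * (32 * 10 ^ 11 / μ ^ 12 * ZB S b) := by
    refine h1.trans ?_
    rw [pow_one]
    exact mul_le_mul_of_nonneg_left h6 (by norm_num)
  have h8 : 0 ≤ 1 / μ ^ 12 * ZB S b := by positivity
  calc (4 * ∑ a, (nrm (a - b) : ℝ) ^ 2 * Real.exp (-2 * μ * dg (nbT N) S b a)) ^ 2
      = 16 * (∑ a, (nrm (a - b) : ℝ) ^ 2 * Real.exp (-2 * μ * dg (nbT N) S b a)) ^ 2 := by ring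
    _ ≤ 16 * (16 * (32 * 10 ^ 11 / μ ^ 12 * ZB S b)) :=
        mul_le_mul_of_nonneg_left h7 (by norm_num)
    _ = (8192 * 10 ^ 11) * (1 / μ ^ 12 * ZB S b) := by ring
    _ ≤ 10 ^ 15 * (1 / μ ^ 12 * ZB S b) := mul_le_mul_of_nonneg_right (by norm_num) h8
    _ = _ := by ring

/-- first power, pathwise -/
theorem FBL_le {μ : ℝ} (hμ : 0 < μ) (hμ1 : μ ≤ 1 / 2) (b : Tor N) (S : Finset (Tor N)) :
    FBL N μ b S ≤ 10 ^ 15 / μ ^ 12 * ZB S b := by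
  have h1 := FBL_sq_le hμ hμ1 b S
  have h2 := FBL_nonneg μ b S
  have hZ := one_le_ZB S b
  have h3 : (1 : ℝ) ≤ 10 ^ 15 / μ ^ 12 := by
    rw [le_div_iff₀ (by positivity), one_mul]
    have h4 : μ ^ 12 ≤ 1 := pow_le_one₀ hμ.le (by linarith)
    linarith [show (1 : ℝ) ≤ 10 ^ 15 by norm_num]
  have h5 : 1 ≤ 10 ^ 15 / μ ^ 12 * ZB S b := by
    calc (1 : ℝ) = 1 * 1 := (one_mul 1).symm
      _ ≤ _ := mul_le_mul h3 hZ zero_le_one (by positivity)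
  by_contra hcon
  push Not at hcon
  nlinarith

/-! ### the energy of a block -/

section det

variable {A : Matrix (Tor N) (Tor N) ℝ} {W : Tor N → ℂ}

/-- one column -/
theorem colL (hs : A.IsSymm) (hA : ∀ x y, |A x y| ≤ AT N x y)
    (hW : ∀ x, (W x).im < 0) (B : Finset (Tor N)) {μ : ℝ} (hμ : 0 ≤ μ)
    (hbig : ∀ x, x ∉ B → 8 * Real.sinh μ ≤ -(W x).im) (b : Tor N) :
    (-(W b).im) * ∑ a, (-(W a).im) * KK A W a b * (nrm (a - b) : ℝ) ^ 2 ≤ FBL N μ b B := by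
  unfold FBL
  rw [Finset.mul_sum, Finset.mul_sum]
  refine Finset.sum_le_sum fun a _ => ?_
  have h1 := ct_pair hs hA hW B hμ hbig b a
  have h2 := mul_le_mul_of_nonneg_left h1 (sq_nonneg (nrm (a - b) : ℝ))
  calc (-(W b).im) * ((-(W a).im) * KK A W a b * (nrm (a - b) : ℝ) ^ 2)
      = (nrm (a - b) : ℝ) ^ 2 * ((-(W b).im) * (-(W a).im) * KK A W a b) := by ring
    _ ≤ _ := h2
    _ = _ := by ring

/-- deterministic: functions which are constant off `Bl` -/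
theorem En_blkL (hs : A.IsSymm) (hA : ∀ x y, |A x y| ≤ AT N x y)
    (hW : ∀ x, (W x).im < 0) (B : Finset (Tor N)) {μ : ℝ} (hμ : 0 ≤ μ)
    (hbig : ∀ x, x ∉ B → 8 * Real.sinh μ ≤ -(W x).im) {κ : Type*} [Fintype κ]
    {F : κ → Tor N → ℝ} {K : ℝ}
    (hF : ∀ x y, ∑ k, (F k x - F k y) ^ 2 ≤ K ^ 2 * (nrm (x - y) : ℝ) ^ 2)
    {Bl : Finset (Tor N)} (hBl : ∀ k, ∀ x ∉ Bl, ∀ y ∉ Bl, F k x = F k y) :
    ∑ k, En A W (F k) ≤ 2 * K ^ 2 * ∑ b ∈ Bl, FBL N μ b B := by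
  classical
  have he : ∀ x, 0 ≤ -(W x).im := fun x => by linarith [hW x]
  obtain ⟨T, hT⟩ : ∃ T : Tor N → Tor N → ℝ, T = fun a b => (-(W a).im) * (-(W b).im) *
      KK A W a b * ∑ k, (F k a - F k b) ^ 2 := ⟨_, rfl⟩
  have hT0 : ∀ a b, 0 ≤ T a b := fun a b => by
    rw [hT]
    exact mul_nonneg (mul_nonneg (mul_nonneg (he a) (he b)) (KK_nonneg _ _))
      (Finset.sum_nonneg fun k _ => sq_nonneg _)
  have hTs : ∀ a b, T a b = T b a := by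
    intro a b
    rw [hT]
    simp only
    have h1 : KK A W a b = KK A W b a := by
      rw [KK, KK, Gr_symm hs]
    have h2 : ∑ k, (F k a - F k b) ^ 2 = ∑ k, (F k b - F k a) ^ 2 :=
      Finset.sum_congr rfl fun k _ => by ring
    rw [h1, h2]
    ring
  have hTz : ∀ a ∉ Bl, ∀ b ∉ Bl, T a b = 0 := by
    intro a ha b hb
    rw [hT]
    simp only
    rw [Finset.sum_eq_zero fun k _ => by rw [hBl k a ha b hb, sub_self]; norm_num, mul_zero]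
  have e1 : ∑ k, En A W (F k) = ∑ b, ∑ a, T a b := by
    rw [hT]
    unfold En
    simp only [Finset.mul_sum]
    calc ∑ k, ∑ x, ∑ y, (-(W x).im) * (-(W y).im) * KK A W x y * (F k x - F k y) ^ 2
        = ∑ k, ∑ y, ∑ x, (-(W x).im) * (-(W y).im) * KK A W x y * (F k x - F k y) ^ 2 :=
          Finset.sum_congr rfl fun k _ => Finset.sum_comm
      _ = ∑ y, ∑ k, ∑ x, (-(W x).im) * (-(W y).im) * KK A W x y * (F k x - F k y) ^ 2 :=
          Finset.sum_comm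
      _ = _ := Finset.sum_congr rfl fun y _ => Finset.sum_comm
  have hcol : ∀ b, ∑ a, T a b ≤ K ^ 2 * FBL N μ b B := by
    intro b
    refine le_trans ?_ (mul_le_mul_of_nonneg_left (colL hs hA hW B hμ hbig b) (sq_nonneg K))
    rw [Finset.mul_sum, Finset.mul_sum]
    refine Finset.sum_le_sum fun a _ => ?_
    rw [hT]
    simp only
    have h2 : 0 ≤ (-(W a).im) * (-(W b).im) * KK A W a b :=
      mul_nonneg (mul_nonneg (he a) (he b)) (KK_nonneg _ _)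
    calc (-(W a).im) * (-(W b).im) * KK A W a b * ∑ k, (F k a - F k b) ^ 2
        ≤ (-(W a).im) * (-(W b).im) * KK A W a b * (K ^ 2 * (nrm (a - b) : ℝ) ^ 2) :=
          mul_le_mul_of_nonneg_left (hF a b) h2
      _ = _ := by ring
  have e2 : ∑ b, ∑ a, T a b = ∑ b ∈ Bl, ∑ a, T a b + ∑ b ∈ Blᶜ, ∑ a, T a b :=
    (Finset.sum_add_sum_compl Bl _).symm
  have e3 : ∑ b ∈ Blᶜ, ∑ a, T a b ≤ ∑ b ∈ Bl, ∑ a, T a b := by
    calc ∑ b ∈ Blᶜ, ∑ a, T a b = ∑ b ∈ Blᶜ, ∑ a ∈ Bl, T a b := by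
          refine Finset.sum_congr rfl fun b hb => ?_
          rw [← Finset.sum_add_sum_compl Bl (fun a => T a b)]
          rw [Finset.sum_eq_zero fun a ha => hTz a (Finset.mem_compl.1 ha) b
            (Finset.mem_compl.1 hb), add_zero]
      _ = ∑ a ∈ Bl, ∑ b ∈ Blᶜ, T a b := Finset.sum_comm
      _ = ∑ a ∈ Bl, ∑ b ∈ Blᶜ, T b a := Finset.sum_congr rfl fun a _ =>
          Finset.sum_congr rfl fun b _ => hTs a b
      _ ≤ ∑ a ∈ Bl, ∑ b, T b a := Finset.sum_le_sum fun a _ =>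
          Finset.sum_le_sum_of_subset_of_nonneg (Finset.subset_univ _) fun b _ _ => hT0 b a
  rw [e1, e2]
  have h4 : ∑ b ∈ Bl, ∑ a, T a b ≤ K ^ 2 * ∑ b ∈ Bl, FBL N μ b B := by
    rw [Finset.mul_sum]
    exact Finset.sum_le_sum fun b _ => hcol b
  linarith

end det

/-- the constant: `C ε⁻¹²` -/
noncomputable def cL (ε : ℝ) : ℝ := 6 * (10 ^ 15 / (ε / 16) ^ 12)

theorem cL_pos {ε : ℝ} (h0 : 0 < ε) : 0 < cL ε := by unfold cL; positivity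

theorem one_le_cL {ε : ℝ} (h0 : 0 < ε) (h1 : ε ≤ 1) : 1 ≤ cL ε := by
  unfold cL
  have h2 : 1 ≤ (10 : ℝ) ^ 15 / (ε / 16) ^ 12 := by
    rw [le_div_iff₀ (by positivity), one_mul]
    have h4 : (ε / 16) ^ 12 ≤ 1 := pow_le_one₀ (by positivity) (by linarith)
    linarith [show (1 : ℝ) ≤ 10 ^ 15 by norm_num]
  linarith

theorem cL_eq {ε : ℝ} : cL ε = 6 * 10 ^ 15 * 16 ^ 12 / ε ^ 12 := by
  unfold cL
  rw [div_pow]
  rw [div_div_eq_mul_div]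
  ring

section main

variable {Λ : Type*} [Fintype Λ] {A : Matrix (Tor N) (Tor N) ℝ}
  {p : Λ → ℝ} {good : Λ} {ν : Λ → Measure ℝ} {e : (Tor N → Λ) → Tor N → ℝ}
  {κ : Type*} [Fintype κ] {F : κ → Tor N → ℝ} {K ε : ℝ} {Bl : Finset (Tor N)}

/-- average of the square of the majorant -/
theorem FBL_sq_labels (hp : ∀ l, 0 ≤ p l) (hp1 : ∑ l, p l = 1) (h1 : 1 - p good ≤ 1 / 8192)
    (h0 : 0 < ε) (hε : ε ≤ 1) (b : Tor N) {B : (Tor N → Λ) → Finset (Tor N)}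
    (hB : ∀ l x, x ∈ B l ↔ l x ≠ good) :
    ∑ L : Tor N → Λ, (∏ x, p (L x)) * FBL N (ε / 16) b (B L) ^ 2 ≤ cL ε := by
  classical
  have hBe : ∀ L, B L = Finset.univ.filter fun x => L x ≠ good := fun L => by
    ext x
    simp [hB]
  have h2 := ZB_labels_b p hp hp1 good h1 b
  have hc : 0 ≤ (10 : ℝ) ^ 15 / (ε / 16) ^ 12 := by positivity
  calc ∑ L : Tor N → Λ, (∏ x, p (L x)) * FBL N (ε / 16) b (B L) ^ 2
      ≤ ∑ L : Tor N → Λ, (∏ x, p (L x)) * (10 ^ 15 / (ε / 16) ^ 12 *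
        ZB (Finset.univ.filter fun x => L x ≠ good) b) := by
        refine Finset.sum_le_sum fun L _ => mul_le_mul_of_nonneg_left ?_
          (Finset.prod_nonneg fun x _ => hp _)
        rw [hBe L]
        exact FBL_sq_le (by positivity) (by linarith) b _
    _ = 10 ^ 15 / (ε / 16) ^ 12 * ∑ L : Tor N → Λ, (∏ x, p (L x)) *
        ZB (Finset.univ.filter fun x => L x ≠ good) b := by
        rw [Finset.mul_sum]
        exact Finset.sum_congr rfl fun L _ => by ring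
    _ ≤ 10 ^ 15 / (ε / 16) ^ 12 * 6 := mul_le_mul_of_nonneg_left h2 hc
    _ = cL ε := by unfold cL; ring

theorem FBL_labels (hp : ∀ l, 0 ≤ p l) (hp1 : ∑ l, p l = 1) (h1 : 1 - p good ≤ 1 / 8192)
    (h0 : 0 < ε) (hε : ε ≤ 1) (b : Tor N) {B : (Tor N → Λ) → Finset (Tor N)}
    (hB : ∀ l x, x ∈ B l ↔ l x ≠ good) :
    ∑ L : Tor N → Λ, (∏ x, p (L x)) * FBL N (ε / 16) b (B L) ≤ cL ε := by
  classical
  have hBe : ∀ L, B L = Finset.univ.filter fun x => L x ≠ good := fun L => by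
    ext x
    simp [hB]
  have h2 := ZB_labels_b p hp hp1 good h1 b
  have hc : 0 ≤ (10 : ℝ) ^ 15 / (ε / 16) ^ 12 := by positivity
  calc ∑ L : Tor N → Λ, (∏ x, p (L x)) * FBL N (ε / 16) b (B L)
      ≤ ∑ L : Tor N → Λ, (∏ x, p (L x)) * (10 ^ 15 / (ε / 16) ^ 12 *
        ZB (Finset.univ.filter fun x => L x ≠ good) b) := by
        refine Finset.sum_le_sum fun L _ => mul_le_mul_of_nonneg_left ?_
          (Finset.prod_nonneg fun x _ => hp _)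
        rw [hBe L]
        exact FBL_le (by positivity) (by linarith) b _
    _ = 10 ^ 15 / (ε / 16) ^ 12 * ∑ L : Tor N → Λ, (∏ x, p (L x)) *
        ZB (Finset.univ.filter fun x => L x ≠ good) b := by
        rw [Finset.mul_sum]
        exact Finset.sum_congr rfl fun L _ => by ring
    _ ≤ 10 ^ 15 / (ε / 16) ^ 12 * 6 := mul_le_mul_of_nonneg_left h2 hc
    _ = cL ε := by unfold cL; ring

/-- **functions of at most quadratic growth**, absorption `≥ ε` at the good sites -/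
theorem startL_theta (hs : A.IsSymm) (hA : ∀ x y, |A x y| ≤ AT N x y)
    (hp : ∀ l, 0 ≤ p l) (hp1 : ∑ l, p l = 1) (h1 : 1 - p good ≤ 1 / 8192)
    (hν : ∀ k, IsProbabilityMeasure (ν k)) (E : ℝ)
    (he : ∀ l x, 0 < e l x) (h0 : 0 < ε) (hε : ε ≤ 1) (hbig : ∀ l x, l x = good → ε ≤ e l x)
    (hF : ∀ x y, ∑ k, (F k x - F k y) ^ 2 ≤ K ^ 2 * (nrm (x - y) : ℝ) ^ 2)
    (hBl : ∀ k, ∀ x ∉ Bl, ∀ y ∉ Bl, F k x = F k y)
    {Θ : ℝ → ℝ} {c1 c2 : ℝ} (hc1 : 0 ≤ c1) (hc2 : 0 ≤ c2) (hΘ0 : ∀ x, 0 ≤ x → 0 ≤ Θ x)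
    (hΘ : ∀ x, 0 ≤ x → Θ x ≤ c1 * x + c2 * x ^ 2) :
    AvG p ν E e (fun _ W => Θ (∑ k, En A W (F k))) ≤
      cL ε * (2 * c1 * (K ^ 2 * Bl.card) + 4 * c2 * (K ^ 2 * Bl.card) ^ 2) := by
  classical
  obtain ⟨B, hB⟩ : ∃ B : (Tor N → Λ) → Finset (Tor N),
      B = fun l => Finset.univ.filter fun x => l x ≠ good := ⟨_, rfl⟩
  have hBm : ∀ l x, x ∈ B l ↔ l x ≠ good := by
    intro l x
    rw [hB]
    simp
  have him : ∀ l v x, (WV E (e l) v x).im < 0 := by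
    intro l v x
    rw [WV_im2]
    linarith [he l x]
  have hF0 : ∀ l v, 0 ≤ ∑ k, En A (WV E (e l) v) (F k) := fun l v =>
    Finset.sum_nonneg fun k _ => P365T2.H536.En_nonneg' (him l v) _
  have h3 : ∀ l v, ∑ k, En A (WV E (e l) v) (F k) ≤
      2 * K ^ 2 * ∑ b ∈ Bl, FBL N (ε / 16) b (B l) := by
    intro l v
    refine En_blkL hs hA (him l v) (B l) (by positivity) (fun x hx => ?_) hF hBl
    rw [WV_im2, neg_neg]
    refine (P365T2.H984.sinh_le h0 hε).trans (hbig l x ?_)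
    by_contra hcon
    exact hx ((hBm l x).2 hcon)
  refine (Av_le (H := fun l => c1 * (2 * K ^ 2 * ∑ b ∈ Bl, FBL N (ε / 16) b (B l)) +
    c2 * (2 * K ^ 2 * ∑ b ∈ Bl, FBL N (ε / 16) b (B l)) ^ 2) hp hν E
    (fun l v => hΘ0 _ (hF0 l v)) (fun l v => (hΘ _ (hF0 l v)).trans ?_)).trans ?_
  · have h4 := h3 l v
    have h5 := pow_le_pow_left₀ (hF0 l v) h4 2
    exact add_le_add (mul_le_mul_of_nonneg_left h4 hc1) (mul_le_mul_of_nonneg_left h5 hc2)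
  have hm0 : ∑ l : Tor N → Λ, (∏ x, p (l x)) * (2 * K ^ 2 * ∑ b ∈ Bl, FBL N (ε / 16) b (B l)) ≤
      cL ε * (2 * (K ^ 2 * Bl.card)) := by
    calc ∑ l : Tor N → Λ, (∏ x, p (l x)) * (2 * K ^ 2 * ∑ b ∈ Bl, FBL N (ε / 16) b (B l))
        = 2 * K ^ 2 * ∑ b ∈ Bl, ∑ l : Tor N → Λ, (∏ x, p (l x)) *
          FBL N (ε / 16) b (B l) := by
          rw [Finset.sum_comm, Finset.mul_sum]
          refine Finset.sum_congr rfl fun l _ => ?_
          rw [← Finset.mul_sum]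
          ring
      _ ≤ 2 * K ^ 2 * ∑ b ∈ Bl, cL ε := mul_le_mul_of_nonneg_left
          (Finset.sum_le_sum fun b _ => FBL_labels hp hp1 h1 h0 hε b hBm) (by positivity)
      _ = _ := by
          rw [Finset.sum_const, nsmul_eq_mul]
          ring
  have hm1 : ∑ l : Tor N → Λ, (∏ x, p (l x)) *
      (2 * K ^ 2 * ∑ b ∈ Bl, FBL N (ε / 16) b (B l)) ^ 2 ≤
      cL ε * (4 * (K ^ 2 * Bl.card) ^ 2) := by
    calc ∑ l : Tor N → Λ, (∏ x, p (l x)) *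
          (2 * K ^ 2 * ∑ b ∈ Bl, FBL N (ε / 16) b (B l)) ^ 2
        ≤ ∑ l : Tor N → Λ, (∏ x, p (l x)) * ((2 * K ^ 2) ^ 2 *
          ((Bl.card : ℝ) * ∑ b ∈ Bl, FBL N (ε / 16) b (B l) ^ 2)) := by
          refine Finset.sum_le_sum fun l _ => mul_le_mul_of_nonneg_left ?_
            (Finset.prod_nonneg fun x _ => hp _)
          rw [mul_pow]
          have := sum_pow_card Bl _ (fun b _ => FBL_nonneg (ε / 16) b (B l)) 1
          rw [pow_one] at this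
          exact mul_le_mul_of_nonneg_left this (by positivity)
      _ = (2 * K ^ 2) ^ 2 * ((Bl.card : ℝ) *
          ∑ b ∈ Bl, ∑ l : Tor N → Λ, (∏ x, p (l x)) * FBL N (ε / 16) b (B l) ^ 2) := by
          rw [Finset.sum_comm, Finset.mul_sum, Finset.mul_sum]
          refine Finset.sum_congr rfl fun l _ => ?_
          rw [← Finset.mul_sum]
          ring
      _ ≤ (2 * K ^ 2) ^ 2 * ((Bl.card : ℝ) * ∑ b ∈ Bl, cL ε) := by
          refine mul_le_mul_of_nonneg_left (mul_le_mul_of_nonneg_left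
            (Finset.sum_le_sum fun b _ => ?_) (by positivity)) (by positivity)
          exact FBL_sq_labels hp hp1 h1 h0 hε b hBm
      _ = _ := by
          rw [Finset.sum_const, nsmul_eq_mul]
          ring
  have e4 : ∑ l : Tor N → Λ, (∏ x, p (l x)) *
      (c1 * (2 * K ^ 2 * ∑ b ∈ Bl, FBL N (ε / 16) b (B l)) +
      c2 * (2 * K ^ 2 * ∑ b ∈ Bl, FBL N (ε / 16) b (B l)) ^ 2) =
      c1 * ∑ l : Tor N → Λ, (∏ x, p (l x)) *
        (2 * K ^ 2 * ∑ b ∈ Bl, FBL N (ε / 16) b (B l)) +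
      c2 * ∑ l : Tor N → Λ, (∏ x, p (l x)) *
        (2 * K ^ 2 * ∑ b ∈ Bl, FBL N (ε / 16) b (B l)) ^ 2 := by
    rw [Finset.mul_sum, Finset.mul_sum, ← Finset.sum_add_distrib]
    refine Finset.sum_congr rfl fun l _ => ?_
    ring
  rw [e4]
  have h10 := mul_le_mul_of_nonneg_left hm0 hc1
  have h11 := mul_le_mul_of_nonneg_left hm1 hc2
  calc _ ≤ c1 * (cL ε * (2 * (K ^ 2 * (Bl.card : ℝ)))) +
        c2 * (cL ε * (4 * (K ^ 2 * (Bl.card : ℝ)) ^ 2)) := add_le_add h10 h11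
    _ = _ := by ring

/-- **second moment of the energy of a block**, absorption `≥ ε` at the good sites -/
theorem startL_sq (hs : A.IsSymm) (hA : ∀ x y, |A x y| ≤ AT N x y)
    (hp : ∀ l, 0 ≤ p l) (hp1 : ∑ l, p l = 1) (h1 : 1 - p good ≤ 1 / 8192)
    (hν : ∀ k, IsProbabilityMeasure (ν k)) (E : ℝ)
    (he : ∀ l x, 0 < e l x) (h0 : 0 < ε) (hε : ε ≤ 1) (hbig : ∀ l x, l x = good → ε ≤ e l x)
    (hF : ∀ x y, ∑ k, (F k x - F k y) ^ 2 ≤ K ^ 2 * (nrm (x - y) : ℝ) ^ 2)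
    (hBl : ∀ k, ∀ x ∉ Bl, ∀ y ∉ Bl, F k x = F k y) :
    AvG p ν E e (fun _ W => (∑ k, En A W (F k)) ^ 2) ≤ 4 * cL ε * (K ^ 2 * Bl.card) ^ 2 := by
  have h := startL_theta (Θ := fun x => x ^ 2) (c1 := 0) (c2 := 1) hs hA hp hp1 h1 hν E he h0
    hε hbig hF hBl le_rfl zero_le_one (fun x hx => by positivity) (fun x hx => by linarith)
  refine h.trans (le_of_eq ?_)
  ring

/-- first moment -/
theorem startL_one (hs : A.IsSymm) (hA : ∀ x y, |A x y| ≤ AT N x y)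
    (hp : ∀ l, 0 ≤ p l) (hp1 : ∑ l, p l = 1) (h1 : 1 - p good ≤ 1 / 8192)
    (hν : ∀ k, IsProbabilityMeasure (ν k)) (E : ℝ)
    (he : ∀ l x, 0 < e l x) (h0 : 0 < ε) (hε : ε ≤ 1) (hbig : ∀ l x, l x = good → ε ≤ e l x)
    (hF : ∀ x y, ∑ k, (F k x - F k y) ^ 2 ≤ K ^ 2 * (nrm (x - y) : ℝ) ^ 2)
    (hBl : ∀ k, ∀ x ∉ Bl, ∀ y ∉ Bl, F k x = F k y) :
    PhiG A p ν E F e ≤ 2 * cL ε * (K ^ 2 * Bl.card) := by
  have h := startL_theta (Θ := fun x => x) (c1 := 1) (c2 := 0) hs hA hp hp1 h1 hν E he h0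
    hε hbig hF hBl zero_le_one le_rfl (fun x hx => hx) (fun x hx => by linarith)
  refine h.trans (le_of_eq ?_)
  ring

/-- **`Φ = 4 En f + En f²`**, `|f| ≤ 1`, `f` Lipschitz with constant `K`, supported in `Bl`,
`K² |Bl| ≤ C` -/
theorem startL_block (hs : A.IsSymm) (hA : ∀ x y, |A x y| ≤ AT N x y)
    (hp : ∀ l, 0 ≤ p l) (hp1 : ∑ l, p l = 1) (h1 : 1 - p good ≤ 1 / 8192)
    (hν : ∀ k, IsProbabilityMeasure (ν k)) (E : ℝ)
    (he : ∀ l x, 0 < e l x) (h0 : 0 < ε) (hε : ε ≤ 1) (hbig : ∀ l x, l x = good → ε ≤ e l x)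
    {f : Tor N → ℝ} (hf1 : ∀ x, |f x| ≤ 1) (hK : 0 ≤ K)
    (hf : ∀ x y, |f x - f y| ≤ K * nrm (x - y)) (hsupp : ∀ x ∉ Bl, f x = 0)
    {C : ℝ} (hC : K ^ 2 * Bl.card ≤ C)
    {Θ : ℝ → ℝ} {c1 c2 : ℝ} (hc1 : 0 ≤ c1) (hc2 : 0 ≤ c2) (hΘ0 : ∀ x, 0 ≤ x → 0 ≤ Θ x)
    (hΘ : ∀ x, 0 ≤ x → Θ x ≤ c1 * x + c2 * x ^ 2) :
    AvG p ν E e (fun _ W => Θ (4 * En A W f + En A W fun x => f x ^ 2)) ≤
      cL ε * (18 * c1 * C + 324 * c2 * C ^ 2) := by
  have h := startL_theta (F := Ff f) (K := 3 * K) (Bl := Bl) hs hA hp hp1 h1 hν E he h0 hε hbig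
    (Ff_lip hf1 hK hf) (fun k x hx y hy => by
      fin_cases k
      · simp [Ff, hsupp x hx, hsupp y hy]
      · simp [Ff, hsupp x hx, hsupp y hy]) hc1 hc2 hΘ0 hΘ
  simp only [sum_En_Ff] at h
  refine h.trans (mul_le_mul_of_nonneg_left ?_ (cL_pos h0).le)
  have hx : 0 ≤ K ^ 2 * (Bl.card : ℝ) := by positivity
  have e1 : (3 * K) ^ 2 * (Bl.card : ℝ) = 9 * (K ^ 2 * Bl.card) := by ring
  rw [e1]
  have h2 : (9 * (K ^ 2 * (Bl.card : ℝ))) ^ 2 ≤ 81 * C ^ 2 := by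
    have := pow_le_pow_left₀ hx hC 2
    nlinarith
  have h3 : 2 * c1 * (9 * (K ^ 2 * (Bl.card : ℝ))) ≤ 18 * c1 * C := by
    have := mul_le_mul_of_nonneg_left hC hc1
    nlinarith
  have h4 : 4 * c2 * (9 * (K ^ 2 * (Bl.card : ℝ))) ^ 2 ≤ 324 * c2 * C ^ 2 := by
    have h5 := mul_le_mul_of_nonneg_left h2 hc2
    nlinarith
  exact add_le_add h3 h4

end main

end P365T2.H798
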